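import Vale.Agent.P181.TW.Defs
import Vale.Agent.P181.DG.Defs

set_option autoImplicit false

/-!
# P181, line GN: few cells below row two, near the diagonal: definitions and literals

Row one of `mu = (m0; tau)` is the row `0` of `Fin (k + 1)`, the rows of `tau` are `i.succ`.
A letter `(j, alpha)` is a column monomial: degree `j` in row one, degrees `alpha` below.
-/

open MvPolynomial

namespace Vale.Agent.P181.GN

open Vale.Agent.P181.T4 (HW)
open Vale.Agent.P181.SZ (TI)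
open Vale.Agent.P181.TW (NX)

/-- The letters. -/
abbrev Lt (k : ℕ) : Type := ℕ × (Fin k → ℕ)

/-- The letter ring. -/
abbrev Po (k : ℕ) : Type := MvPolynomial (Lt k) ℂ

variable {k : ℕ}

/-- The size of a letter. -/
def sz (p : Lt k) : ℕ := p.1 + ∑ i, p.2 i

/-- The degree in row one of a monomial in the letters. -/
def xs (v : Lt k →₀ ℕ) : ℕ := v.sum fun p n => n * p.1

/-- The degree in row `i + 2` of a monomial in the letters. -/
def us (v : Lt k →₀ ℕ) (i : Fin k) : ℕ := v.sum fun p n => n * p.2 i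

/-- The number of letters of a monomial. -/
def ln (v : Lt k →₀ ℕ) : ℕ := v.sum fun _ n => n

/-- The raising operator (row `r` times derivative in row `i`) on the rows of `tau`. -/
noncomputable def EU (r i : Fin k) : Derivation ℂ (Po k) (Po k) :=
  mkDerivation ℂ fun p => (p.2 i : ℂ) • X (p.1, p.2 - Pi.single i 1 + Pi.single r 1)

/-- The raising operator from row `i` of `tau` to row one. -/
noncomputable def E1 (i : Fin k) : Derivation ℂ (Po k) (Po k) :=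
  mkDerivation ℂ fun p => (p.2 i : ℂ) • X (p.1 + 1, p.2 - Pi.single i 1)

/-- The `U`-highest weight polynomials all of whose monomials satisfy `P`. -/
noncomputable def UH (P : (Lt k →₀ ℕ) → Prop) : Submodule ℂ (Po k) where
  carrier := {f | (∀ v, coeff v f ≠ 0 → P v) ∧ ∀ r i : Fin k, r < i → EU r i f = 0}
  zero_mem' := ⟨fun v hv => absurd (coeff_zero v) hv, fun r i _ => map_zero _⟩
  add_mem' := by
    rintro f g ⟨hf1, hf2⟩ ⟨hg1, hg2⟩
    refine ⟨fun v hv => ?_, fun r i h => by rw [map_add, hf2 r i h, hg2 r i h, add_zero]⟩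
    rw [coeff_add] at hv
    by_cases h : coeff v f = 0
    · rw [h, zero_add] at hv
      exact hg1 v hv
    · exact hf1 v h
  smul_mem' := by
    rintro c f ⟨hf1, hf2⟩
    refine ⟨fun v hv => ?_, fun r i h => by rw [Derivation.map_smul, hf2 r i h, smul_zero]⟩
    rw [coeff_smul, smul_eq_mul] at hv
    exact hf1 v (right_ne_zero_of_mul hv)

lemma mem_UH {P : (Lt k →₀ ℕ) → Prop} {f : Po k} :
    f ∈ UH P ↔ (∀ v, coeff v f ≠ 0 → P v) ∧ ∀ r i : Fin k, r < i → EU r i f = 0 := Iff.rfl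

/-- All letters, degree `z` in row one, content `tau` below. -/
def gEL (tau : Fin k → ℕ) (z : ℤ) (v : Lt k →₀ ℕ) : Prop :=
  (∀ p ∈ v.support, 1 ≤ sz p) ∧ (xs v : ℤ) = z ∧ ∀ i, us v i = tau i

/-- Letters of size `≥ 2`, degree `m0 - y` in row one. -/
def gTT (tau : Fin k → ℕ) (y m0 : ℕ) (v : Lt k →₀ ℕ) : Prop :=
  (∀ p ∈ v.support, 2 ≤ sz p) ∧ xs v + y = m0 ∧ ∀ i, us v i = tau i

/-- Letters of size `≥ 2`, the grade `∑ (j - 1)` is `m0 - y`. -/
def gPP (tau : Fin k → ℕ) (y m0 : ℕ) (v : Lt k →₀ ℕ) : Prop :=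
  (∀ p ∈ v.support, 2 ≤ sz p) ∧ xs v + y = m0 + ln v ∧ ∀ i, us v i = tau i

/-- As `gPP`, without the letters `(2, 0)` and `(1, e_i)`. -/
def gBB (tau : Fin k → ℕ) (y m0 : ℕ) (v : Lt k →₀ ℕ) : Prop :=
  (∀ p ∈ v.support, 2 ≤ sz p ∧ (sz p = 2 → p.1 = 0)) ∧ xs v + y = m0 + ln v ∧
    ∀ i, us v i = tau i

/-- As `gBB`, with a letter `(0, alpha)`. -/
def gSL (tau : Fin k → ℕ) (y m0 : ℕ) (v : Lt k →₀ ℕ) : Prop :=
  gBB tau y m0 v ∧ ∃ p ∈ v.support, p.1 = 0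

/-- The number `EL`. -/
noncomputable def EL (tau : Fin k → ℕ) (z : ℤ) : ℕ := Module.finrank ℂ (UH (gEL tau z))

/-- The translation in row one at `xi = e_1`. -/
noncomputable def CD0 : Derivation ℂ (Po k) (Po k) :=
  mkDerivation ℂ fun p => if sz p = 2 then (if p.1 = 2 then 2 else 0)
    else (p.1 : ℂ) • X (p.1 - 1, p.2)

/-- The translation in row `i` of `tau` at `xi = e_1`. -/
noncomputable def CD (i : Fin k) : Derivation ℂ (Po k) (Po k) :=
  mkDerivation ℂ fun p => if sz p = 2 then (if p.1 = 1 ∧ p.2 i = 1 then 1 else 0)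
    else (p.2 i : ℂ) • X (p.1, p.2 - Pi.single i 1)

/-- The kernel of the translations, at most `V` letters. -/
noncomputable def KK (V : ℕ) (tau : Fin k → ℕ) (y m0 : ℕ) : Submodule ℂ (Po k) :=
  UH (fun v => gPP tau y m0 v ∧ ln v ≤ V) ⊓
    (LinearMap.ker (CD0 (k := k)).toLinearMap ⊓ ⨅ i : Fin k, LinearMap.ker (CD i).toLinearMap)

/-- Symmetric highest weight polynomials in `y` columns which use all columns and are translation
invariant modulo fewer columns. -/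
noncomputable def EE (y m : ℕ) (mu : Fin m → ℕ) : Submodule ℂ (MvPolynomial (Fin m × Fin y) ℂ) where
  carrier := {f | f ∈ HW m (Fin y) mu ∧
    (∀ e : Equiv.Perm (Fin y), rename (fun p : Fin m × Fin y => (p.1, e p.2)) f = f) ∧
    (∀ v, coeff v f ≠ 0 → ∀ j, 1 ≤ ∑ i, v (i, j)) ∧
    ∀ i v, (∀ j, 1 ≤ ∑ i', v (i', j)) → coeff v (∑ j, pderiv (i, j) f) = 0}
  zero_mem' := ⟨zero_mem _, fun _ => map_zero _, fun v hv => absurd (coeff_zero v) hv,
    fun i v _ => by simp⟩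
  add_mem' := by
    rintro f g ⟨hf1, hf2, hf3, hf4⟩ ⟨hg1, hg2, hg3, hg4⟩
    refine ⟨add_mem hf1 hg1, fun e => by rw [map_add, hf2 e, hg2 e], fun v hv => ?_,
      fun i v h => ?_⟩
    · rw [coeff_add] at hv
      by_cases h : coeff v f = 0
      · rw [h, zero_add] at hv
        exact hg3 v hv
      · exact hf3 v h
    · have h' : ∑ j, pderiv (i, j) (f + g) = ∑ j, pderiv (i, j) f + ∑ j, pderiv (i, j) g := by
        rw [← Finset.sum_add_distrib]
        exact Finset.sum_congr rfl fun j _ => map_add _ _ _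
      rw [h', coeff_add, hf4 i v h, hg4 i v h, add_zero]
  smul_mem' := by
    rintro c f ⟨hf1, hf2, hf3, hf4⟩
    refine ⟨Submodule.smul_mem _ c hf1, fun e => by rw [map_smul, hf2 e], fun v hv => ?_,
      fun i v h => ?_⟩
    · rw [coeff_smul, smul_eq_mul] at hv
      exact hf3 v (right_ne_zero_of_mul hv)
    · have h' : ∑ j, pderiv (i, j) (c • f) = c • ∑ j, pderiv (i, j) f := by
        rw [Finset.smul_sum]
        exact Finset.sum_congr rfl fun j _ => Derivation.map_smul _ _ _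
      rw [h', coeff_smul, hf4 i v h, smul_zero]

/-- `T(n, d)`: `n` points, degree `≤ d` in each point. -/
noncomputable def T (n d m : ℕ) (mu : Fin m → ℕ) : ℕ := Module.finrank ℂ (TI n d m mu)

/-- **[FD]** finite dimension. -/
def FD : Prop := ∀ (k y m0 : ℕ) (tau : Fin k → ℕ) (z : ℤ),
  FiniteDimensional ℂ (UH (gPP tau y m0)) ∧ FiniteDimensional ℂ (UH (gEL tau z)) ∧
    FiniteDimensional ℂ (UH (gTT tau y m0))

/-- **[Q1]** EN. -/
def Q1 : Prop := ∀ (y m : ℕ) (mu : Fin m → ℕ), 1 ≤ y →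
  T y (∑ i, mu i) m mu + Module.finrank ℂ (EE (y + 1) m mu) ≤ T (y + 1) (∑ i, mu i) m mu

/-- **[Q2]** KE. -/
def Q2 : Prop := ∀ (k V y m0 : ℕ) (tau : Fin k → ℕ), V + ∑ i, tau i ≤ y →
  Module.finrank ℂ (KK V tau y m0) ≤ Module.finrank ℂ (EE y (k + 1) (Fin.cons m0 tau))

/-- **[Q3]** SL. -/
def Q3 : Prop := ∀ (k V y m0 : ℕ) (tau : Fin k → ℕ),
  Module.finrank ℂ (UH (gBB tau y m0)) ≤ Module.finrank ℂ (KK V tau y m0) +
    Module.finrank ℂ (UH (fun v : Lt k →₀ ℕ => gPP tau y m0 v ∧ V < ln v))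

/-- **[Q4]** NU. -/
def Q4 : Prop := ∀ (k n y m0 : ℕ) (tau : Fin k → ℕ),
  NX (k + 1) y n (Fin.cons m0 tau) ≤ Module.finrank ℂ (UH (gTT tau y m0))

/-- **[Q4s]** the shift. -/
def Q4s : Prop := ∀ (k y m0 : ℕ) (tau : Fin k → ℕ),
  Module.finrank ℂ (UH (gTT tau y m0)) + Module.finrank ℂ (UH (gSL tau y m0)) ≤
    Module.finrank ℂ (UH (gBB tau y m0))

/-- **[Q5]** many letters. -/
def Q5 : Prop := ∀ (k V y m0 : ℕ) (tau : Fin k → ℕ),
  Module.finrank ℂ (UH (fun v : Lt k →₀ ℕ => gPP tau y m0 v ∧ V < ln v)) ≤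
    (m0 + ∑ i, tau i + 1) ^ 2 * EL tau ((m0 : ℤ) + 2 * (∑ i, tau i : ℕ) - y - V - 1)

/-- **[Q6]** a letter `> b` and many letters. -/
def Q6 : Prop := ∀ (k a b m0 w : ℕ) (tau : Fin k → ℕ), 3 ≤ a → a < b → w = m0 + ∑ i, tau i →
  3 * w ≤ a * b →
  T b w (k + 1) (Fin.cons m0 tau) + T a b (k + 1) (Fin.cons m0 tau) ≤
    T b b (k + 1) (Fin.cons m0 tau) + T a w (k + 1) (Fin.cons m0 tau) +
      (w + 2) ^ 6 * EL tau ((m0 : ℤ) + 6 * (∑ i, tau i : ℕ) + 4 * (w / b : ℕ) - a - b)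

/-- **[Q7]** the slack. -/
def Q7 : Prop := ∀ (k y m0 : ℕ) (tau : Fin (k + 1) → ℕ) (z : ℤ), 2 ≤ tau 0 →
  z + y + (∑ i, tau i : ℕ) + 4 ≤ m0 →
  EL tau z ≤ 2 * (m0 + ∑ i, tau i + 2) ^ 4 * Module.finrank ℂ (UH (gSL tau y m0))

/-- **[Q8]** the growth. -/
def Q8 : Prop := ∀ (k : ℕ) (tau : Fin k → ℕ) (X K S z r : ℕ), 0 < S → 3 * K * S ≤ r →
  X * (z + r) ≤ S ^ 2 → X ^ K * EL tau (z : ℤ) ≤ EL tau ((z : ℤ) + r)

/-- **[Q8m]** monotone. -/
def Q8m : Prop := ∀ (k : ℕ) (tau : Fin k → ℕ) (z : ℤ), EL tau z ≤ EL tau (z + 1)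

/-- **[Q9]** the core. -/
def Core : Prop := ∀ (k a b m0 w X K S : ℕ) (tau : Fin (k + 1) → ℕ), a < b → 2 ≤ tau 0 →
  w = m0 + ∑ i, tau i → 32 * ∑ i, tau i ≤ a → 128 * w ≤ a * b → 0 < S → 6 * K * S ≤ a →
  64 ≤ a → X * w ≤ S ^ 2 → 8 * (w + 2) ^ 10 ≤ X ^ K →
  T a b (k + 2) (Fin.cons m0 tau) ≤ T b a (k + 2) (Fin.cons m0 tau)

end Vale.Agent.P181.GN
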